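import Vale.Agent.P154.Q4.Assemble
import Vale.Agent.P154.Q4.PPointwise

namespace Vale.Agent.Results.P154.FourStates

open Filter Topology Vale.Agent.P154.Tree

theorem result :
    (∀ (d : ℕ) (lam : ℝ), 2 ≤ d → 0 ≤ lam → lam ≤ 1 →
      ((0 < liminf (adv 4 (regLaw d) lam) atTop ↔ 1 < (d : ℝ) * lam ^ 2) ∧
        (Tendsto (adv 4 (regLaw d) lam) atTop (𝓝 0) ↔ (d : ℝ) * lam ^ 2 ≤ 1))) ∧
    (∀ (d lam : ℝ), 0 ≤ d → 0 ≤ lam → lam ≤ 1 →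
      ((0 < liminf (adv 4 (poissonLaw d) lam) atTop ↔ 1 < d * lam ^ 2) ∧
        (Tendsto (adv 4 (poissonLaw d) lam) atTop (𝓝 0) ↔ d * lam ^ 2 ≤ 1))) :=
  Vale.Agent.P154.Q4.four_states_of_wgtK (L := Vale.Agent.P154.Q4.wgtL)
    (fun _ a b => Vale.Agent.P154.Q4.wgtL_bd a b) Vale.Agent.P154.Q4.pairPhi_wgtL

end Vale.Agent.Results.P154.FourStates
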