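import Vale.Agent.P154.Q3.Thresholds
import Vale.Agent.P154.Tree.Kesten
import Vale.Agent.P154.Anti.WideRange
import Vale.Agent.P154.Small.Range
import Vale.Agent.P154.Anti.Thin
import Vale.Agent.P154.Mid.Range
import Vale.Agent.P154.Anti.Reg5.Range

namespace Vale.Agent.Results.P154.ThreeStates

open Filter Topology Vale.Agent.P154.Tree

theorem iff_of {w : ℕ → ℝ} {lam x : ℝ}
    (low : x ≤ 1 → Tendsto (adv 3 w lam) atTop (𝓝 0))
    (up : 1 < x → 0 < liminf (adv 3 w lam) atTop ∧ ¬ Tendsto (adv 3 w lam) atTop (𝓝 0)) :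
    (0 < liminf (adv 3 w lam) atTop ↔ 1 < x) ∧
      (Tendsto (adv 3 w lam) atTop (𝓝 0) ↔ x ≤ 1) := by
  refine ⟨⟨fun h => ?_, fun h => (up h).1⟩, ⟨fun h => ?_, low⟩⟩
  · by_contra hn
    rw [(low (not_lt.1 hn)).liminf_eq] at h
    exact lt_irrefl _ h
  · by_contra hn
    exact (up (not_le.1 hn)).2 h

theorem wide_or_small {d lam : ℝ} (hd : 0 ≤ d) (h1 : lam ≤ 0) (h : d * lam ^ 2 ≤ 1)
    (hr : -(77 / 200) ≤ lam) : Tendsto (adv 3 (poissonLaw d) lam) atTop (𝓝 0) := by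
  rcases le_total 1 (d * (77 / 200) ^ 2) with c | c
  · exact Vale.Agent.P154.Mid.poisson_mid c h1 h
  have h2 : (77 / 200 : ℝ) ^ 2 > 0 := by norm_num
  set e : ℝ := 1 / (77 / 200) ^ 2 with he
  have hd2 : d ≤ e := by rw [he, le_div_iff₀ h2]; exact c
  refine tendsto_adv_poisson_of_le (adm_of_range (by norm_num) (by norm_num; linarith)
    (by linarith)) hd hd2 (Vale.Agent.P154.Mid.poisson_mid ?_ h1 ?_)
  · rw [he, div_mul_cancel₀ _ h2.ne']
  · rw [he, div_mul_eq_mul_div, one_mul, div_le_one h2]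
    nlinarith

theorem result :
    (∀ (d : ℕ) (lam : ℝ), 2 ≤ d → -(1 / 2) ≤ lam → lam ≤ 1 → (d ≠ 4 ∨ -(41 / 142) ≤ lam) →
      ((0 < liminf (adv 3 (regLaw d) lam) atTop ↔ 1 < (d : ℝ) * lam ^ 2) ∧
        (Tendsto (adv 3 (regLaw d) lam) atTop (𝓝 0) ↔ (d : ℝ) * lam ^ 2 ≤ 1))) ∧
    (∀ (d lam : ℝ), 0 ≤ d → -(1 / 2) ≤ lam → lam ≤ 1 →
      (d ≤ 3 ∨ 27 / 4 ≤ d ∨ -(77 / 200) ≤ lam) →
      ((0 < liminf (adv 3 (poissonLaw d) lam) atTop ↔ 1 < d * lam ^ 2) ∧
        (Tendsto (adv 3 (poissonLaw d) lam) atTop (𝓝 0) ↔ d * lam ^ 2 ≤ 1))) := by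
  refine ⟨fun d lam hd h0 h1 hr => ?_, fun d lam hd h0 h1 hr => ?_⟩
  · have hl : Adm 3 lam := adm_of_range (by norm_num) (by norm_num; linarith) h1
    refine iff_of (fun h => ?_)
      (fun h => reconstruction_regLaw (q := 3) (by norm_num) d hl h)
    rcases le_total 0 lam with hs | hs
    · exact Vale.Agent.P154.Q3.regular_three hd hs h1 h
    rcases (by omega : d ≤ 3 ∨ d = 4 ∨ d = 5 ∨ 6 ≤ d) with c | c | c | c
    · exact Vale.Agent.P154.Small.regular_small c h0 hs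
    · subst c
      exact Vale.Agent.P154.Anti.Wide.tendsto_adv_wide (isLaw_regLaw 4)
        (hr.resolve_left (by norm_num)) hs
        (Or.inr ⟨h, by rw [branchProb_regLaw hd]; exact one_pos⟩)
    · subst c
      exact Vale.Agent.P154.Anti.Reg5.tendsto_adv_five hs (by exact_mod_cast h)
    · exact Vale.Agent.P154.Mid.regular_mid c hs h
  · have hl : Adm 3 lam := adm_of_range (by norm_num) (by norm_num; linarith) h1
    refine iff_of (fun h => ?_)
      (fun h => reconstruction_poissonLaw (q := 3) (by norm_num) hd hl h)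
    rcases le_total 0 lam with hs | hs
    · exact Vale.Agent.P154.Q3.poisson_three hd hs h1 h
    rcases hr with c | c | c
    · exact Vale.Agent.P154.Small.poisson_small hd c h0 hs
    · exact Vale.Agent.P154.Mid.poisson_mid (by linarith) hs h
    · exact wide_or_small hd hs h c

end Vale.Agent.Results.P154.ThreeStates
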