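import Vale.Agent.P154.Anti.Crit.Regular

namespace Vale.Agent.Results.P154.ThreeStatesRegular

open Filter Topology Vale.Agent.P154.Tree

theorem result :
    ∀ (d : ℕ) (lam : ℝ), 2 ≤ d → -(1 / 2) ≤ lam → lam ≤ 1 →
      ((0 < liminf (adv 3 (regLaw d) lam) atTop ↔ 1 < (d : ℝ) * lam ^ 2) ∧
        (Tendsto (adv 3 (regLaw d) lam) atTop (𝓝 0) ↔ (d : ℝ) * lam ^ 2 ≤ 1)) :=
  Vale.Agent.P154.Anti.Crit.three_regular

end Vale.Agent.Results.P154.ThreeStatesRegular
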